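import Mathlib
import Vale.Agent.Lib.P031.Ratio

namespace Vale.Agent.Results.P031.LimitValue

open Vale.Agent.Lib.P031

/-- For every `c > 1` the ratio `V(cx)/V(x)` comes arbitrarily close to `c` from both sides for
arbitrarily large `x`; hence `c` is the only possible limit of `V(cx)/V(x)`. -/
theorem result (c : ℝ) (hc : 1 < c) :
    (∀ ε : ℝ, 0 < ε → ∃ᶠ x : ℝ in Filter.atTop,
        (totientCount (c * x) : ℝ) < (c + ε) * totientCount x) ∧
    (∀ ε : ℝ, 0 < ε → ∃ᶠ x : ℝ in Filter.atTop,
        (c - ε) * totientCount x < (totientCount (c * x) : ℝ)) ∧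
    (∀ L : ℝ, Filter.Tendsto (fun x : ℝ => (totientCount (c * x) : ℝ) / totientCount x)
        Filter.atTop (nhds L) → L = c) :=
  ⟨frequently_lt c hc, frequently_gt c hc, limit_eq c hc⟩

end Vale.Agent.Results.P031.LimitValue
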